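import Crest.Agent.X212.Num57.Cnn
import Crest.Agent.X212.Orx52.Gen
import Crest.Agent.X212.Pj41.Sm
import Crest.Agent.X212.Line51.Glue
import Crest.Agent.X212.Dr59.Frm

-- ▼ part X212/Cg28/Sy
section

/-!
# X212 / Cg28 (helper28): connections on the tangent bundle

`Sy` : generating systems of one-forms and vector fields; `tr` : transition matrices;
`Eqv U S C S' C'` : the matrices `C`, `C'` describe the same connection on `U`.
-/

set_option autoImplicit false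
set_option linter.unusedSectionVars false

open Set Filter Topology Function Module Matrix
open scoped ContDiff Manifold
open Crest.Agent.R208 Crest.Agent.R208.F Crest.Agent.X212.Dr59 Crest.Agent.X212.Int54
open Crest.Agent.X212.Num57 Crest.Agent.X212.Pj41

noncomputable section

namespace Crest.Agent.X212.Cg28

section lc

variable {M N : Type*} [TopologicalSpace M] [TopologicalSpace N] {x : M} {P Q : Set M → Prop}

/-- `P` holds for the small open sets near `x` -/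
def Lc (x : M) (P : Set M → Prop) : Prop := ∀ᶠ U in (𝓝 x).smallSets, IsOpen U → P U

theorem Lc.of {U : Set M} (hU : U ∈ 𝓝 x) (h : ∀ V ⊆ U, IsOpen V → P V) : Lc x P :=
  eventually_smallSets.2 ⟨U, hU, h⟩

theorem Lc.all (h : Lc x P) : ∃ U, IsOpen U ∧ x ∈ U ∧ ∀ V ⊆ U, IsOpen V → P V :=
  let ⟨s, hs, k⟩ := eventually_smallSets.1 h
  ⟨interior s, isOpen_interior, mem_interior_iff_mem_nhds.2 hs, fun V hV => k V (hV.trans interior_subset)⟩

theorem Lc.ex (h : Lc x P) : ∃ U, IsOpen U ∧ x ∈ U ∧ P U :=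
  let ⟨U, h1, h2, h3⟩ := h.all
  ⟨U, h1, h2, h3 U subset_rfl h1⟩

theorem Lc.ev (h : Lc x P) : ∀ᶠ y in 𝓝 x, Lc y P :=
  let ⟨_, h1, h2, h3⟩ := h.all
  eventually_of_mem (h1.mem_nhds h2) fun _ hy => .of (h1.mem_nhds hy) h3

theorem Lc.mono (h : Lc x P) (k : ∀ U, IsOpen U → P U → Q U) : Lc x Q :=
  Eventually.mono h fun U a hU => k U hU (a hU)

theorem Lc.and (h : Lc x P) (h' : Lc x Q) : Lc x fun U => P U ∧ Q U :=
  (Eventually.and h h').mono fun _ a hU => ⟨a.1 hU, a.2 hU⟩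

theorem Lc.of_ev {p : M → Prop} (h : ∀ᶠ y in 𝓝 x, p y) : Lc x fun U => ∀ y ∈ U, p y :=
  .of h fun _ hV _ _ hy => hV hy

theorem Lc.fin {ι : Type*} [Finite ι] {R : ι → Set M → Prop} (h : ∀ j, Lc x (R j)) :
    Lc x fun U => ∀ j, R j U := (eventually_all.2 h).mono fun _ a hU j => a j hU

theorem Lc.pb {f : N → M} {y : N} (hf : ContinuousAt f y) (h : Lc (f y) P) :
    Lc y fun W => ∃ U, IsOpen U ∧ MapsTo f W U ∧ P U :=
  let ⟨U, h1, h2, h3⟩ := h.ex
  .of (hf (h1.mem_nhds h2)) fun _ hV _ => ⟨U, h1, hV, h3⟩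

end lc

variable {E : Type} [NormedAddCommGroup E] [NormedSpace ℝ E] [FiniteDimensional ℝ E]
  {H : Type} [TopologicalSpace H] {I : ModelWithCorners ℝ E H}
  {M : Type} [TopologicalSpace M] [ChartedSpace H M] [I.Boundaryless] [IsManifold I ∞ M]
  {E' : Type} [NormedAddCommGroup E'] [NormedSpace ℝ E'] [FiniteDimensional ℝ E']
  {H' : Type} [TopologicalSpace H'] {J : ModelWithCorners ℝ E' H'}
  {N : Type} [TopologicalSpace N] [ChartedSpace H' N] [J.Boundaryless] [IsManifold J ∞ N]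
  {E'' : Type} [NormedAddCommGroup E''] [NormedSpace ℝ E''] [FiniteDimensional ℝ E'']
  {H'' : Type} [TopologicalSpace H''] {K : ModelWithCorners ℝ E'' H''}
  {P : Type} [TopologicalSpace P] [ChartedSpace H'' P] [K.Boundaryless] [IsManifold K ∞ P]
  {κ κ' κ'' : Type} [Fintype κ] [Fintype κ'] [Fintype κ''] [DecidableEq κ] [DecidableEq κ']
  [DecidableEq κ''] {m n : Type} {U V : Set M} {x : M}

/-! ### matrices -/

section mat

variable {X Y Z : Matrix m n (M → Ext E)}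

theorem eqO_iff : EqO U X Y ↔ ∀ x ∈ U, X.map (ea x) = Y.map (ea x) :=
  ⟨fun h x hx => ea_congr fun i j => h i j x hx, fun h i j x hx => congrFun (congrFun (h x hx) i) j⟩

theorem eqO_rfl : EqO U X X := fun _ _ _ _ => rfl
theorem eqO_symm (h : EqO U X Y) : EqO U Y X := fun i j x hx => (h i j x hx).symm
theorem eqO_trans (h : EqO U X Y) (h' : EqO U Y Z) : EqO U X Z :=
  fun i j x hx => (h i j x hx).trans (h' i j x hx)

theorem eqO_mul {A A' : Matrix m κ (M → Ext E)} {B B' : Matrix κ n (M → Ext E)} (h : EqO U A A')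
    (h' : EqO U B B') : EqO U (A * B) (A' * B') := eqO_iff.2 fun x hx => by
  rw [mp_mul, mp_mul, eqO_iff.1 h x hx, eqO_iff.1 h' x hx]

theorem eqO_ev (hU : IsOpen U) (h : EqO U X Y) (hx : x ∈ U) (i : m) (j : n) : X i j =ᶠ[𝓝 x] Y i j :=
  eventually_of_mem (hU.mem_nhds hx) (h i j)

theorem fz_mul' (S : M → Matrix m κ ℝ) (T : M → Matrix κ n ℝ) :
    fz E (fun x => S x * T x) = fz E S * fz E T := by
  ext i j x
  simp [fz, fn, Matrix.mul_apply, Finset.sum_apply, map_sum]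

theorem fz_one' : fz E (fun _ : M => (1 : Matrix κ κ ℝ)) = 1 := by
  ext i j x
  by_cases h : i = j
  · subst h; simp [fz, fn]
  · simp [fz, fn, Matrix.one_apply_ne h]

theorem fz_ev' (T : M → Matrix m n ℝ) : Ev U (fz E T) := fun _ _ _ _ => AlgHom.commutes _ _

theorem fz_ms' {T : M → Matrix m n ℝ} (h : ∀ i j, ∀ x ∈ U, FSm I (fun x => T x i j) x) :
    MS I U (fz E T) := fun i j x hx => cAt_fn le_rfl (h i j x hx)

theorem fz_congr' {S T : M → Matrix m n ℝ} (h : ∀ x ∈ U, S x = T x) : EqO U (fz E S) (fz E T) :=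
  fun i j x hx => by simp [fz, fn, h x hx]

variable {C D : Matrix κ κ (M → Ext E)} {C' D' : Matrix κ' κ' (M → Ext E)}
  {u : Matrix κ' κ (M → Ext E)} {v : Matrix κ κ' (M → Ext E)}

theorem co_congr (hU : IsOpen U) (h : Co I U C) (e : EqO U D C) : Co I U D :=
  ⟨fun i j x hx => (h.sm i j x hx).congr (eqO_ev hU e hx i j), fun i j x hx => by
    rw [e i j x hx, h.od i j x hx]⟩

theorem itw_at (h : Itw I U C C' u) (hx : x ∈ U) :
    (md I u).map (ea x) + C'.map (ea x) * u.map (ea x) - u.map (ea x) * C.map (ea x) = 0 := by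
  simpa only [mp_sub, mp_add, mp_mul, mp_zero] using eqO_iff.1 h.eq x hx

theorem itw_of (h1 : MS I U u) (h2 : Ev U u) (h : ∀ x ∈ U,
    (md I u).map (ea x) + C'.map (ea x) * u.map (ea x) - u.map (ea x) * C.map (ea x) = 0) :
    Itw I U C C' u :=
  ⟨h1, h2, eqO_iff.2 fun x hx => by simpa only [mp_sub, mp_add, mp_mul, mp_zero] using h x hx⟩

theorem itw_congr (h : Itw I U C C' u) (e : EqO U D C) (e' : EqO U D' C') : Itw I U D D' u :=
  itw_of h.sm h.ev fun x hx => by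
    rw [eqO_iff.1 e x hx, eqO_iff.1 e' x hx]
    exact itw_at h hx

theorem pa_one : Pa I U C 1 := by
  refine itw_of ms_one (fz_one' (E := E) (M := M) (κ := κ) ▸ fz_ev' _) fun x _ => ?_
  have : (md I (1 : Matrix κ κ (M → Ext E))).map (ea x) = 0 := by
    ext i j
    by_cases h : i = j
    · subst h; simp [md, dM_one]
    · simp [md, Matrix.one_apply_ne h, dM_zero]
  rw [this, mp_one, zero_add, Matrix.mul_one, Matrix.one_mul, sub_self]

/-- the inverse of an intertwiner -/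
theorem itw_inv (hU : IsOpen U) (hC : MS I U C) (h : Itw I U C C' u) (hv : MS I U v) (ev : Ev U v)
    (h1 : EqO U (u * v) 1) (h2 : EqO U (v * u) 1) : Itw I U C' C v := by
  have hp : Pa I U C (v * u) := pa_one.congr hU h2
  have k := tpt_u hU hC h.sm hv h.ev ev hp (by simpa using eqO_mul (eqO_rfl (X := u)) h2)
  refine itw_congr (tpt_v hU hC h.sm hv ev hp (by simpa using eqO_mul h2 (eqO_rfl (X := v))))
    (eqO_iff.2 fun x hx => ?_) eqO_rfl
  have a : C'.map (ea x) * u.map (ea x) = (tpt I C u v).map (ea x) * u.map (ea x) :=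
    add_left_cancel (sub_left_injective ((itw_at h hx).trans (itw_at k hx).symm))
  have b := eqO_iff.1 h1 x hx
  rw [mp_mul, mp_one] at b
  rw [← Matrix.mul_one (C'.map _), ← b, ← Matrix.mul_assoc, a, Matrix.mul_assoc, b, Matrix.mul_one]

variable {ι : Type} [Fintype ι] {ψ : ι → M → ℝ}

theorem map_mix (ψ : ι → M → ℝ) (X : ι → Matrix m n (M → Ext E)) (x : M) :
    (∑ j, ψ j • X j).map (ea x) = ∑ j, ψ j x • (X j).map (ea x) := by
  ext a b
  simp [Matrix.sum_apply]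

theorem mix_apply (ψ : ι → M → ℝ) (X : ι → Matrix m n (M → Ext E)) (a : m) (b : n) :
    (∑ j, ψ j • X j) a b = ∑ j, ψ j • X j a b := by
  simp [Matrix.sum_apply]

theorem co_mix (hU : IsOpen U) {C : ι → Matrix κ κ (M → Ext E)}
    (h : ∀ j, (∀ x ∈ U, ψ j x = 0) ∨ ((∀ x ∈ U, FSm I (ψ j) x) ∧ Co I U (C j))) :
    Co I U (∑ j, ψ j • C j) := by
  refine ⟨fun a b x hx => ?_, fun a b x hx => ?_⟩
  · rw [mix_apply]
    refine cAt_sum fun j _ => (h j).elim (fun k => cAt_zero.congr ?_) fun k =>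
      CAt.fsmul le_rfl (k.1 x hx) (k.2.sm a b x hx)
    filter_upwards [hU.mem_nhds hx] with y hy using by simp [k y hy]
  · rw [mix_apply, Finset.sum_apply, map_sum, ← Finset.sum_neg_distrib]
    refine Finset.sum_congr rfl fun j _ => (h j).elim (fun k => by simp [k x hx]) fun k => ?_
    rw [Pi.smul_apply', map_smul, k.2.od a b x hx, smul_neg]

theorem itw_mix {C : ι → Matrix κ κ (M → Ext E)} {C' : ι → Matrix κ' κ' (M → Ext E)}
    (h1 : MS I U u) (h2 : Ev U u) (hs : ∀ x ∈ U, ∑ j, ψ j x = 1)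
    (h : ∀ j, (∀ x ∈ U, ψ j x = 0) ∨ Itw I U (C j) (C' j) u) :
    Itw I U (∑ j, ψ j • C j) (∑ j, ψ j • C' j) u := itw_of h1 h2 fun x hx => by
  rw [map_mix, map_mix, ← one_smul ℝ ((md I u).map _), ← hs x hx, Finset.sum_smul, Matrix.sum_mul,
    Matrix.mul_sum, ← Finset.sum_add_distrib, ← Finset.sum_sub_distrib]
  refine Finset.sum_eq_zero fun j _ => ?_
  rw [Matrix.smul_mul, Matrix.mul_smul, ← smul_add, ← smul_sub]
  exact (h j).elim (fun k => by rw [k x hx, zero_smul]) fun k => by rw [itw_at k hx, smul_zero]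

end mat

/-! ### systems -/

variable (E M κ) in
/-- one-forms and vector fields -/
structure Sy where
  th : κ → M → Ext E
  e : κ → M → E

variable (I) in
/-- `∑ th a ⊗ e a` is the identity on `U` -/
structure Sy.On (S : Sy E M κ) (U : Set M) : Prop where
  sm : ∀ a, ∀ x ∈ U, SmAt I (S.th a) x
  ex : ∀ x ∈ U, ∀ v, ∑ a, e1 (S.th a x) v • S.e a x = v
  te : ∀ a, ∀ x ∈ U, ∀ α, SmAt I α x → FSm I (fun y => e1 (α y) (S.e a y)) x

/-- the transition matrix -/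
def tr (S' : Sy E M κ') (S : Sy E M κ) : Matrix κ' κ (M → Ext E) :=
  fz E fun x => Matrix.of fun b a => e1 (S'.th b x) (S.e a x)

/-- equal on `U` -/
def Sy.Eq (S S' : Sy E M κ) (U : Set M) : Prop := ∀ a, ∀ x ∈ U, S.th a x = S'.th a x ∧ S.e a x = S'.e a x

variable (I) in
/-- the same connection -/
structure Eqv (U : Set M) (S : Sy E M κ) (C : Matrix κ κ (M → Ext E)) (S' : Sy E M κ')
    (C' : Matrix κ' κ' (M → Ext E)) : Prop where
  s : S.On I U
  s' : S'.On I U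
  c : Co I U C
  c' : Co I U C'
  u : Itw I U C C' (tr S' S)
  v : Itw I U C' C (tr S S')

variable (I) in
/-- a connection on the tangent bundle -/
abbrev Tn (U : Set M) (S : Sy E M κ) (C : Matrix κ κ (M → Ext E)) : Prop := Eqv I U S C S C

variable {S R : Sy E M κ} {S' R' : Sy E M κ'} {S'' : Sy E M κ''} {C D : Matrix κ κ (M → Ext E)}
  {C' D' : Matrix κ' κ' (M → Ext E)} {C'' : Matrix κ'' κ'' (M → Ext E)}

theorem Sy.On.mono (h : S.On I U) (hV : V ⊆ U) : S.On I V :=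
  ⟨fun a x hx => h.sm a x (hV hx), fun x hx => h.ex x (hV hx), fun a x hx => h.te a x (hV hx)⟩

theorem Sy.Eq.symm (h : S.Eq R U) : R.Eq S U := fun a x hx => ⟨(h a x hx).1.symm, (h a x hx).2.symm⟩

theorem Sy.On.congr (hU : IsOpen U) (h : S.On I U) (e : R.Eq S U) : R.On I U :=
  ⟨fun a x hx => (h.sm a x hx).congr (eventually_of_mem (hU.mem_nhds hx) fun y hy => (e a y hy).1),
    fun x hx v => by simpa only [(e _ x hx).1, (e _ x hx).2] using h.ex x hx v,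
    fun a x hx α hα => (h.te a x hx α hα).congr_of_eventuallyEq
      (eventually_of_mem (hU.mem_nhds hx) fun y hy => by simp only [(e a y hy).2])⟩

theorem tr_ev : Ev U (tr S' S) := fz_ev' _

theorem tr_ms (h' : S'.On I U) (h : S.On I U) : MS I U (tr S' S) :=
  fz_ms' fun b a x hx => h.te a x hx _ (h'.sm b x hx)

theorem tr_mul (h : S'.On I U) : EqO U (tr S'' S' * tr S' S) (tr S'' S) := by
  rw [tr, tr, ← fz_mul']
  refine fz_congr' fun x hx => Matrix.ext fun c a => ?_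
  simp only [Matrix.mul_apply, Matrix.of_apply]
  conv_rhs => rw [← h.ex x hx (S.e a x), e1_vsum]
  exact Finset.sum_congr rfl fun _ _ => mul_comm _ _

theorem tr_congr (e' : R'.Eq S' U) (e : R.Eq S U) : EqO U (tr R' R) (tr S' S) :=
  fz_congr' fun x hx => Matrix.ext fun b a => by simp only [Matrix.of_apply, (e' b x hx).1, (e a x hx).2]

theorem Eqv.symm (h : Eqv I U S C S' C') : Eqv I U S' C' S C := ⟨h.s', h.s, h.c', h.c, h.v, h.u⟩

theorem Eqv.mono (h : Eqv I U S C S' C') (hV : V ⊆ U) : Eqv I V S C S' C' :=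
  ⟨h.s.mono hV, h.s'.mono hV, h.c.mono hV, h.c'.mono hV, h.u.mono hV, h.v.mono hV⟩

theorem Eqv.trans (hU : IsOpen U) (h : Eqv I U S C S' C') (k : Eqv I U S' C' S'' C'') :
    Eqv I U S C S'' C'' :=
  ⟨h.s, k.s', h.c, k.c', (k.u.mul hU h.c.sm h.c'.sm k.c'.sm h.u).congr hU (eqO_symm (tr_mul h.s')),
    (h.v.mul hU k.c'.sm h.c'.sm h.c.sm k.v).congr hU (eqO_symm (tr_mul h.s'))⟩

theorem Eqv.left (hU : IsOpen U) (h : Eqv I U S C S' C') : Tn I U S C := h.trans hU h.symm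

theorem Eqv.right (hU : IsOpen U) (h : Eqv I U S C S' C') : Tn I U S' C' := h.symm.trans hU h

theorem Eqv.lc (h : Eqv I U S C S' C') (hU : U ∈ 𝓝 x) : Lc x fun V => Eqv I V S C S' C' :=
  .of hU fun _ hV _ => h.mono hV

theorem eqv_of_lc (h : ∀ x ∈ U, Lc x fun V => Eqv I V S C S' C') : Eqv I U S C S' C' := by
  choose! V _ h2 h3 using fun x hx => (h x hx).ex
  have k : ∀ {S : Sy E M κ}, (∀ x ∈ U, S.On I (V x)) → S.On I U := fun k =>
    ⟨fun a x hx => (k x hx).sm a x (h2 x hx), fun x hx => (k x hx).ex x (h2 x hx),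
      fun a x hx => (k x hx).te a x (h2 x hx)⟩
  have k' : ∀ {S : Sy E M κ'}, (∀ x ∈ U, S.On I (V x)) → S.On I U := fun k =>
    ⟨fun a x hx => (k x hx).sm a x (h2 x hx), fun x hx => (k x hx).ex x (h2 x hx),
      fun a x hx => (k x hx).te a x (h2 x hx)⟩
  exact ⟨k fun x hx => (h3 x hx).s, k' fun x hx => (h3 x hx).s',
    ⟨fun i j x hx => (h3 x hx).c.sm i j x (h2 x hx), fun i j x hx => (h3 x hx).c.od i j x (h2 x hx)⟩,
    ⟨fun i j x hx => (h3 x hx).c'.sm i j x (h2 x hx), fun i j x hx => (h3 x hx).c'.od i j x (h2 x hx)⟩,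
    ⟨fun i j x hx => (h3 x hx).u.sm i j x (h2 x hx), fun i j x hx => (h3 x hx).u.ev i j x (h2 x hx),
      fun i j x hx => (h3 x hx).u.eq i j x (h2 x hx)⟩,
    ⟨fun i j x hx => (h3 x hx).v.sm i j x (h2 x hx), fun i j x hx => (h3 x hx).v.ev i j x (h2 x hx),
      fun i j x hx => (h3 x hx).v.eq i j x (h2 x hx)⟩⟩

/-- the characteristic form does not depend on the description -/
theorem Eqv.c2 (hU : IsOpen U) (h : Eqv I U S C S' C') (hx : x ∈ U) :
    c2 I C' (tr S' S') x = c2 I C (tr S S) x := by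
  rw [← h.u.tr2 hU h.c h.c'.sm h.v (tr_ms h.s h.s)
    (eqO_trans (eqO_mul eqO_rfl (tr_mul h.s')) (tr_mul h.s)) hx]
  exact c2_congr (fun _ _ => .rfl) fun i j =>
    eqO_symm (eqO_trans (eqO_mul (tr_mul h.s) eqO_rfl) (tr_mul h.s)) i j x hx

theorem Eqv.congr (hU : IsOpen U) (h : Eqv I U S C S' C') (e : R.Eq S U) (ec : EqO U D C) :
    Eqv I U R D S' C' :=
  ⟨h.s.congr hU e, h.s', co_congr hU h.c ec, h.c',
    itw_congr (h.u.congr hU (tr_congr (fun _ _ _ => ⟨rfl, rfl⟩) e)) ec eqO_rfl,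
    itw_congr (h.v.congr hU (tr_congr e fun _ _ _ => ⟨rfl, rfl⟩)) eqO_rfl ec⟩

variable (I) in
/-- the connection `(S, C)` in the system `S'` -/
def tc (S : Sy E M κ) (C : Matrix κ κ (M → Ext E)) (S' : Sy E M κ') : Matrix κ' κ' (M → Ext E) :=
  tpt I C (tr S' S) (tr S S')

theorem Tn.tc (hU : IsOpen U) (h : Tn I U S C) (h' : S'.On I U) : Eqv I U S C S' (tc I S C S') :=
  have hp : Pa I U C (tr S S' * tr S' S) := h.u.congr hU (tr_mul h')
  ⟨h.s, h', h.c, tpt_co hU h.c (tr_ms h' h.s) (tr_ms h.s h') tr_ev tr_ev,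
    tpt_u hU h.c.sm (tr_ms h' h.s) (tr_ms h.s h') tr_ev tr_ev hp
      (eqO_trans (eqO_mul eqO_rfl (tr_mul h')) (tr_mul h.s)),
    tpt_v hU h.c.sm (tr_ms h' h.s) (tr_ms h.s h') tr_ev hp
      (eqO_trans (eqO_mul (tr_mul h') eqO_rfl) (tr_mul h.s))⟩

theorem Sy.On.gr (hU : IsOpen U) (h : S.On I U) : Tn I U S (gr I (tr S S)) :=
  have h1 := gr_co hU (tr_ms h h) tr_ev
  have h2 := gr_pa hU (tr_ms h h) tr_ev (tr_mul h)
  ⟨h, h, h1, h1, h2, h2⟩

theorem tn_one (hU : IsOpen U) (h : S.On I U) (hC : Co I U C) (e : EqO U (tr S S) 1) : Tn I U S C :=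
  ⟨h, h, hC, hC, pa_one.congr hU e, pa_one.congr hU e⟩

theorem eqv_mix {ι : Type} [Fintype ι] {ψ : ι → M → ℝ} (hU : IsOpen U) (h1 : S.On I U) (h2 : S'.On I U)
    {C : ι → Matrix κ κ (M → Ext E)} {C' : ι → Matrix κ' κ' (M → Ext E)} (hs : ∀ x ∈ U, ∑ j, ψ j x = 1)
    (h : ∀ j, (∀ x ∈ U, ψ j x = 0) ∨ ((∀ x ∈ U, FSm I (ψ j) x) ∧ Eqv I U S (C j) S' (C' j))) :
    Eqv I U S (∑ j, ψ j • C j) S' (∑ j, ψ j • C' j) :=
  ⟨h1, h2, co_mix hU fun j => (h j).imp_right fun k => ⟨k.1, k.2.c⟩,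
    co_mix hU fun j => (h j).imp_right fun k => ⟨k.1, k.2.c'⟩,
    itw_mix (tr_ms h2 h1) tr_ev hs fun j => (h j).imp_right fun k => k.2.u,
    itw_mix (tr_ms h1 h2) tr_ev hs fun j => (h j).imp_right fun k => k.2.v⟩

/-! ### pull-back -/

/-- the pull-back under a local diffeomorphism -/
def Sy.pb (S : Sy E M κ) (J : ModelWithCorners ℝ E' H') (I : ModelWithCorners ℝ E H) (f : N → M) :
    Sy E' N κ :=
  ⟨fun a => pm J I f (S.th a), fun a y => (mf J I f y).inverse (S.e a (f y))⟩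

variable {f g : N → M} {W : Set N} {y : N}

theorem e1_pm (f : N → M) (a : M → Ext E) (y : N) (v : E') :
    e1 (pm J I f a y) v = e1 (a (f y)) (mf J I f y v) := by
  rw [e1, e1, pm_apply, evA_pb]
  congr 1
  funext i
  fin_cases i
  rfl

theorem inv_mf (hf : IsLocalDiffeomorphAt J I ∞ f y) : (mf J I f y).IsInvertible :=
  ⟨hf.mfderivToContinuousLinearEquiv (by simp), rfl⟩

theorem e1_pb (hf : IsLocalDiffeomorphAt J I ∞ f y) (α : M → Ext E) (a : κ) :
    e1 (pm J I f α y) ((S.pb J I f).e a y) = e1 (α (f y)) (S.e a (f y)) := by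
  rw [e1_pm]
  exact congrArg _ ((inv_mf hf).self_apply_inverse _)

theorem Sy.On.pb (h : S.On I U) (hf : ∀ y ∈ W, IsLocalDiffeomorphAt J I ∞ f y) (hm : MapsTo f W U) :
    (S.pb J I f).On J W := by
  refine ⟨fun a y hy => (h.sm a _ (hm hy)).pm (hf y hy).contMDiffAt, fun y hy v => ?_,
    fun a y hy α hα => ?_⟩
  · simp only [Sy.pb, e1_pm, ← map_smul, ← map_sum, h.ex _ (hm hy)]
    exact (inv_mf (hf y hy)).inverse_apply_self v
  · have k := hf y hy
    have e := k.localInverse_eventuallyEq_left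
    have s : SmAt I (pm I J k.localInverse α) (f y) :=
      SmAt.pm k.localInverse_contMDiffAt (by rwa [show k.localInverse (f y) = y from e.self_of_nhds])
    refine ((h.te a _ (hm hy) _ s).comp y k.contMDiffAt).congr_of_eventuallyEq ?_
    filter_upwards [Orx52.eventually_ld k, e.eventually_nhds] with z h1 h2
    rw [Function.comp_apply, ← e1_pb h1, Orx52.pm_pm_inv h1 h2]

theorem tr_pb (hf : ∀ y ∈ W, IsLocalDiffeomorphAt J I ∞ f y) :
    EqO W (tr (S'.pb J I f) (S.pb J I f)) ((tr S' S).map (pa I J f)) := fun b a y hy => by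
  refine Eq.trans ?_ (congrFun (pm_fn f fun x => e1 (S'.th b x) (S.e a x)) y).symm
  exact congrArg (algebraMap ℝ _) (e1_pb (hf y hy) _ _)

theorem Eqv.pb (hW : IsOpen W) (h : Eqv I U S C S' C') (hf : ∀ y ∈ W, IsLocalDiffeomorphAt J I ∞ f y)
    (hm : MapsTo f W U) :
    Eqv J W (S.pb J I f) (C.map (pa I J f)) (S'.pb J I f) (C'.map (pa I J f)) :=
  have mp : Mp J I W U f := ⟨fun y hy => (hf y hy).contMDiffAt, hm⟩
  ⟨h.s.pb hf hm, h.s'.pb hf hm, h.c.pm mp, h.c'.pm mp, (h.u.pm mp).congr hW (tr_pb hf),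
    (h.v.pm mp).congr hW (tr_pb hf)⟩

theorem Lc.eqv_pb (hf : IsLocalDiffeomorphAt J I ∞ f y) (h : Lc (f y) fun U => Eqv I U S C S' C') :
    Lc y fun W => Eqv J W (S.pb J I f) (C.map (pa I J f)) (S'.pb J I f) (C'.map (pa I J f)) :=
  ((h.pb hf.contMDiffAt.continuousAt).and (.of_ev (Orx52.eventually_ld hf))).mono
    fun _ hW ⟨⟨_, _, h1, h2⟩, h3⟩ => h2.pb hW h3 h1

theorem c2_pb (hf : IsLocalDiffeomorphAt J I ∞ f y) (h : ∀ i j, SmAt I (C i j) (f y)) :
    c2 J (C.map (pa I J f)) (tr (S.pb J I f) (S.pb J I f)) y = pm J I f (c2 I C (tr S S)) y := by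
  rw [← pm_c2 _ hf.contMDiffAt h]
  exact c2_congr (fun _ _ => .rfl) fun i j => tr_pb (W := {y}) (fun _ e => e ▸ hf) i j y rfl

theorem pb_comp {k : P → N} {O : Set P} (hf : ∀ z ∈ O, IsLocalDiffeomorphAt J I ∞ f (k z))
    (hk : ∀ z ∈ O, IsLocalDiffeomorphAt K J ∞ k z) :
    ((S.pb J I f).pb K J k).Eq (S.pb K I (f ∘ k)) O := fun a z hz => by
  have h1 := (hf z hz).mdifferentiableAt ne0
  have h2 := (hk z hz).mdifferentiableAt ne0
  refine ⟨pm_comp h1 h2, ?_⟩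
  simp only [Sy.pb, mf_comp h1 h2]
  exact ((inv_mf (hk z hz)).inverse_comp_apply_of_right).symm

theorem map_comp {X : Matrix m n (M → Ext E)} {k : P → N} {O : Set P}
    (hf : ∀ z ∈ O, IsLocalDiffeomorphAt J I ∞ f (k z)) (hk : ∀ z ∈ O, IsLocalDiffeomorphAt K J ∞ k z) :
    EqO O ((X.map (pa I J f)).map (pa J K k)) (X.map (pa I K (f ∘ k))) := fun _ _ z hz =>
  pm_comp ((hf z hz).mdifferentiableAt ne0) ((hk z hz).mdifferentiableAt ne0)

theorem pb_congr (hW : IsOpen W) (e : EqOn f g W) : (S.pb J I f).Eq (S.pb J I g) W := fun a y hy => by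
  have k : f =ᶠ[𝓝 y] g := eventually_of_mem (hW.mem_nhds hy) e
  exact ⟨pm_congr k rfl, by simp only [Sy.pb, mf_congr k, e hy]⟩

theorem map_congr {X : Matrix m n (M → Ext E)} (hW : IsOpen W) (e : EqOn f g W) :
    EqO W (X.map (pa I J f)) (X.map (pa I J g)) := fun _ _ _ hy =>
  pm_congr (eventually_of_mem (hW.mem_nhds hy) e) rfl

theorem pb_id (S : Sy E M κ) : S.pb I I id = S := by
  obtain ⟨th, e⟩ := S
  simp only [Sy.pb, pm_id, mf_id, ContinuousLinearMap.inverse_id]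
  rfl

theorem map_id' (X : Matrix m n (M → Ext E)) : X.map (pa I I id) = X :=
  Matrix.ext fun i j => pm_id (I := I) (X i j)

/-! ### change of the system, examples -/

/-- `th' = u th`, `e' = e v` -/
def Sy.chg (S : Sy E M κ) (u : M → Matrix κ' κ ℝ) (v : M → Matrix κ κ' ℝ) : Sy E M κ' :=
  ⟨fun b => ∑ a, (fun x => u x b a) • S.th a, fun b x => ∑ a, v x a b • S.e a x⟩

variable {u : M → Matrix κ' κ ℝ} {v : M → Matrix κ κ' ℝ}

theorem e1_chg (b : κ') (x : M) (w : E) :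
    e1 ((S.chg u v).th b x) w = ∑ a, u x b a * e1 (S.th a x) w := by
  simp only [Sy.chg, Finset.sum_apply, Pi.smul_apply', e1_sum, e1_smul]

theorem Sy.On.chg (h : S.On I U) (hu : ∀ b a, ∀ x ∈ U, FSm I (fun x => u x b a) x)
    (hv : ∀ a b, ∀ x ∈ U, FSm I (fun x => v x a b) x) (e : ∀ x ∈ U, v x * u x = 1) :
    (S.chg u v).On I U := by
  refine ⟨fun b x hx => cAt_sum fun a _ => CAt.fsmul le_rfl (hu b a x hx) (h.sm a x hx),
    fun x hx w => ?_, fun b x hx α hα => ?_⟩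
  · simp only [e1_chg]
    simp only [Sy.chg, Finset.smul_sum, smul_smul]
    rw [Finset.sum_comm, ← h.ex x hx w]
    refine Finset.sum_congr rfl fun a _ => ?_
    rw [← Finset.sum_smul, h.ex x hx w]
    congr 1
    have := congrFun (congrArg (fun A => A *ᵥ fun c => e1 (S.th c x) w) (e x hx)) a
    simp only [← Matrix.mulVec_mulVec, Matrix.one_mulVec] at this
    rw [← this]
    exact Finset.sum_congr rfl fun _ _ => mul_comm _ _
  · simp only [Sy.chg, e1_vsum]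
    exact FSm.sum' fun a _ => (hv a b x hx).mul' (h.te a x hx α hα)

theorem tr_chg : tr (S.chg u v) S'' = fz E u * tr S S'' := by
  rw [tr, tr, ← fz_mul']
  congr 1
  funext x
  ext b c
  simp only [Matrix.of_apply, e1_chg, Matrix.mul_apply]

theorem tr_chg' : tr S'' (S.chg u v) = tr S'' S * fz E v := by
  rw [tr, tr, ← fz_mul']
  congr 1
  funext x
  ext c b
  simp only [Matrix.of_apply, Sy.chg, e1_vsum, Matrix.mul_apply, mul_comm]

/-- change of a frame -/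
theorem Tn.chg (hU : IsOpen U) (h : Tn I U S C) (e : EqO U (tr S S) 1) (hC : Co I U C')
    (hu : Itw I U C C' (fz E u)) (su : ∀ b a, ∀ x ∈ U, FSm I (fun x => u x b a) x)
    (sv : ∀ a b, ∀ x ∈ U, FSm I (fun x => v x a b) x) (e1 : ∀ x ∈ U, u x * v x = 1)
    (e2 : ∀ x ∈ U, v x * u x = 1) : Eqv I U S C (S.chg u v) C' :=
  ⟨h.s, h.s.chg su sv e2, h.c, hC,
    hu.congr hU (by simpa only [tr_chg, Matrix.mul_one] using eqO_mul (eqO_rfl (X := fz E u)) e),
    (itw_inv hU h.c.sm hu (fz_ms' sv) (fz_ev' _)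
      (by rw [← fz_mul', ← fz_one']; exact fz_congr' e1)
      (by rw [← fz_mul', ← fz_one']; exact fz_congr' e2)).congr hU
      (by simpa only [tr_chg', Matrix.one_mul] using eqO_mul e (eqO_rfl (X := fz E v)))⟩

/-- the constant frame of a basis -/
def Sy.std (b : Basis κ ℝ E) : Sy E E κ := ⟨fun a _ => io (b.coord a), fun a _ => b a⟩

theorem std_on (b : Basis κ ℝ E) : (Sy.std b).On 𝓘(ℝ, E) univ := by
  refine ⟨fun a x _ => cAt_model.2 contDiffAt_const, fun x _ v => ?_, fun a x _ α hα => ?_⟩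
  · simp only [Sy.std, e1_io]
    exact b.sum_repr v
  · let L : Ext E →L[ℝ] ℝ := LinearMap.toContinuousLinearMap
      { toFun := fun c => e1 c (b a), map_add' := fun _ _ => e1_add _ _ _,
        map_smul' := fun _ _ => e1_smul _ _ _ }
    exact (L.contDiff.contDiffAt.comp x (cAt_model.1 hα)).contMDiffAt

theorem tr_std (b : Basis κ ℝ E) : tr (Sy.std b) (Sy.std b) = 1 := by
  rw [tr, ← fz_one']
  congr 1
  funext x
  ext a c
  simp [Sy.std, e1_io, Matrix.one_apply, Finsupp.single_apply, eq_comm]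

section fr

variable [MeasurableSpace E] [BorelSpace E] [MeasurableSpace M] [BorelSpace M]
  [SecondCountableTopology M] (F : An.Fr I M κ)

/-- the system of a Parseval frame -/
def Sy.fr : Sy E M κ := ⟨Num57.th F, fun a x => ee F x a⟩

theorem fr_on : (Sy.fr F).On I univ :=
  ⟨fun a x _ => smAt_th F a x, fun x _ v => by
    simpa only [Sy.fr, th, e1_io] using (cf F x).ex v, fun a _ _ _ hα => sa_k1 F hα a⟩

theorem tr_fr : tr (Sy.fr F) (Sy.fr F) = fz E fun x => Matrix.of fun a b => F.P a b x := by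
  simp only [tr, Sy.fr, th, e1_io, (cf F _).te]

end fr

end Crest.Agent.X212.Cg28
end
end

-- ▼ part X212/Cg28/Bas
section

/-!
# X212 / Cg28 (helper28): basic germs

`Bf`, `Bm`, `BM` : germs pulled back by `pr`; `BS` : basic systems; `Bsc` : basic connections.
-/

set_option autoImplicit false
set_option linter.unusedSectionVars false

open Set Filter Topology Function Module Matrix
open scoped ContDiff Manifold
open Crest.Agent.R208 Crest.Agent.R208.F Crest.Agent.X212.Dr59 Crest.Agent.X212.Int54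
open Crest.Agent.X212.Num57 Crest.Agent.X212.Pj41

noncomputable section

namespace Crest.Agent.X212.Cg28

variable {E : Type} [NormedAddCommGroup E] [NormedSpace ℝ E] [FiniteDimensional ℝ E]
  {H : Type} [TopologicalSpace H] {I : ModelWithCorners ℝ E H}
  {M : Type} [TopologicalSpace M] [ChartedSpace H M] [I.Boundaryless] [IsManifold I ∞ M]
  {E' : Type} [NormedAddCommGroup E'] [NormedSpace ℝ E'] [FiniteDimensional ℝ E']
  {H' : Type} [TopologicalSpace H'] {J : ModelWithCorners ℝ E' H'}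
  {N : Type} [TopologicalSpace N] [ChartedSpace H' N] [J.Boundaryless] [IsManifold J ∞ N]
  {F : Type} [NormedAddCommGroup F] [NormedSpace ℝ F] [FiniteDimensional ℝ F]
  {G : Type} [TopologicalSpace G] {K : ModelWithCorners ℝ F G}
  {Q : Type} [TopologicalSpace Q] [ChartedSpace G Q] [K.Boundaryless] [IsManifold K ∞ Q]
  {κ κ' : Type} [Fintype κ] [Fintype κ'] [DecidableEq κ] [DecidableEq κ'] {m n : Type}
  {ι o : Type} [Fintype ι] [Fintype o] {pr : M → Q} {p : M}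

variable (K) in
/-- basic functions -/
def Bf (pr : M → Q) (g : M → ℝ) (p : M) : Prop := ∃ γ : Q → ℝ, FSm K γ (pr p) ∧ g =ᶠ[𝓝 p] γ ∘ pr

variable (I K) in
/-- basic forms -/
def Bm (pr : M → Q) (a : M → Ext E) (p : M) : Prop :=
  ∃ b : Q → Ext F, SmAt K b (pr p) ∧ a =ᶠ[𝓝 p] pm I K pr b

variable (I K) in
/-- basic matrices -/
def BM (pr : M → Q) (X : Matrix m n (M → Ext E)) (p : M) : Prop := ∀ i j, Bm I K pr (X i j) p

variable (I K) in
/-- `pr` is smooth near `p` -/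
def Pv (pr : M → Q) (p : M) : Prop := ∀ᶠ y in 𝓝 p, ContMDiffAt I K ∞ pr y

section fun_

variable {g g' : M → ℝ}

theorem Bf.congr (h : Bf K pr g p) (e : g' =ᶠ[𝓝 p] g) : Bf K pr g' p :=
  let ⟨γ, h1, h2⟩ := h
  ⟨γ, h1, e.trans h2⟩

theorem bf_of {γ : Q → ℝ} (h : FSm K γ (pr p)) : Bf K pr (fun y => γ (pr y)) p := ⟨γ, h, .rfl⟩

theorem bf_const (c : ℝ) : Bf K pr (fun _ => c) p := ⟨fun _ => c, contMDiffAt_const, .rfl⟩

theorem Bf.comp₂ (h : Bf K pr g p) (h' : Bf K pr g' p) {Φ : ℝ × ℝ → ℝ}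
    (hΦ : ContDiffAt ℝ ∞ Φ (g p, g' p)) : Bf K pr (fun y => Φ (g y, g' y)) p := by
  obtain ⟨γ, h1, h2⟩ := h
  obtain ⟨γ', k1, k2⟩ := h'
  rw [h2.self_of_nhds, k2.self_of_nhds] at hΦ
  refine ⟨fun q => Φ (γ q, γ' q),
    ContDiffAt.comp_contMDiffAt (f := fun q => (γ q, γ' q)) hΦ (h1.prodMk_space k1), ?_⟩
  filter_upwards [h2, k2] with y a b using by rw [a, b]; rfl

theorem Bf.comp (h : Bf K pr g p) {Φ : ℝ → ℝ} (hΦ : ContDiffAt ℝ ∞ Φ (g p)) :
    Bf K pr (fun y => Φ (g y)) p :=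
  h.comp₂ h (Φ := fun z => Φ z.1) (ContDiffAt.comp (g p, g p) hΦ contDiffAt_fst)

theorem Bf.add (h : Bf K pr g p) (h' : Bf K pr g' p) : Bf K pr (fun y => g y + g' y) p :=
  h.comp₂ h' (Φ := fun z => z.1 + z.2) (by fun_prop)

theorem Bf.sub (h : Bf K pr g p) (h' : Bf K pr g' p) : Bf K pr (fun y => g y - g' y) p :=
  h.comp₂ h' (Φ := fun z => z.1 - z.2) (by fun_prop)

theorem Bf.mul (h : Bf K pr g p) (h' : Bf K pr g' p) : Bf K pr (fun y => g y * g' y) p :=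
  h.comp₂ h' (Φ := fun z => z.1 * z.2) (by fun_prop)

theorem Bf.neg (h : Bf K pr g p) : Bf K pr (fun y => -g y) p := h.comp (Φ := fun t => -t) (by fun_prop)

theorem Bf.inv (h : Bf K pr g p) (h0 : g p ≠ 0) : Bf K pr (fun y => (g y)⁻¹) p :=
  h.comp (contDiffAt_inv ℝ h0)

theorem Bf.div (h : Bf K pr g p) (h' : Bf K pr g' p) (h0 : g' p ≠ 0) : Bf K pr (fun y => g y / g' y) p := by
  simpa only [div_eq_mul_inv] using h.mul (h'.inv h0)

theorem bf_sum {α : Type*} {s : Finset α} {f : α → M → ℝ} (h : ∀ i ∈ s, Bf K pr (f i) p) :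
    Bf K pr (fun y => ∑ i ∈ s, f i y) p := by
  rw [← Finset.sum_fn]
  exact Finset.sum_induction f (Bf K pr · p) (fun _ _ => Bf.add) (bf_const 0) h

variable {a b : M → Ext E}

theorem Bm.congr (h : Bm I K pr a p) (e : b =ᶠ[𝓝 p] a) : Bm I K pr b p :=
  let ⟨γ, h1, h2⟩ := h
  ⟨γ, h1, e.trans h2⟩

theorem Bf.fn (h : Bf K pr g p) : Bm I K pr (fn E g) p :=
  let ⟨γ, h1, h2⟩ := h
  ⟨Dr59.fn F γ, cAt_fn le_rfl h1, by
    rw [pm_fn]
    exact h2.mono fun y hy => congrArg (algebraMap ℝ _) hy⟩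

theorem bm_zero : Bm I K pr (0 : M → Ext E) p := ⟨0, cAt_zero, by rw [pm_zero]⟩

theorem bm_one : Bm I K pr (1 : M → Ext E) p :=
  ⟨1, cAt_one, .of_forall fun _ => (map_one _).symm⟩

theorem Bm.add (h : Bm I K pr a p) (h' : Bm I K pr b p) : Bm I K pr (a + b) p :=
  let ⟨γ, h1, h2⟩ := h
  let ⟨γ', k1, k2⟩ := h'
  ⟨γ + γ', h1.add k1, pm_add (J := I) (I := K) pr γ γ' ▸ h2.add k2⟩

theorem Bm.sub (h : Bm I K pr a p) (h' : Bm I K pr b p) : Bm I K pr (a - b) p :=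
  let ⟨γ, h1, h2⟩ := h
  let ⟨γ', k1, k2⟩ := h'
  ⟨γ - γ', h1.sub k1, pm_sub (J := I) (I := K) pr γ γ' ▸ h2.sub k2⟩

theorem Bm.neg (h : Bm I K pr a p) : Bm I K pr (-a) p := by simpa using bm_zero.sub h

theorem Bm.mul (h : Bm I K pr a p) (h' : Bm I K pr b p) : Bm I K pr (a * b) p :=
  let ⟨γ, h1, h2⟩ := h
  let ⟨γ', k1, k2⟩ := h'
  ⟨γ * γ', h1.mul k1, pm_mul (J := I) (I := K) pr γ γ' ▸ h2.mul k2⟩

theorem Bm.fsmul (hg : Bf K pr g p) (h : Bm I K pr a p) : Bm I K pr (g • a) p :=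
  fn_mul g a ▸ hg.fn.mul h

theorem bm_sum {α : Type*} {s : Finset α} {f : α → M → Ext E} (h : ∀ i ∈ s, Bm I K pr (f i) p) :
    Bm I K pr (∑ i ∈ s, f i) p := Finset.sum_induction f (Bm I K pr · p) (fun _ _ => Bm.add) bm_zero h

theorem Pv.cont (hp : Pv I K pr p) : ContinuousAt pr p := hp.self_of_nhds.continuousAt

theorem Bm.d (hp : Pv I K pr p) (h : Bm I K pr a p) : Bm I K pr (dM I a) p := by
  obtain ⟨γ, h1, h2⟩ := h
  refine ⟨dM K γ, h1.dM, (dM_congr_nhds h2).trans ?_⟩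
  filter_upwards [hp, hp.cont.eventually ((h1.of_le (m := 1) (by simp)).eventually (by norm_cast))]
    with y k1 k2 using dM_pm one_ne_zero k1 k2

theorem Bf.df (hp : Pv I K pr p) (h : Bf K pr g p) : Bm I K pr (df I g) p := by
  obtain ⟨γ, h1, h2⟩ := h
  refine ⟨Dr59.df K γ, smAt_df h1, ?_⟩
  filter_upwards [hp, h2.eventually_nhds, hp.cont.eventually
    ((contMDiffAt_iff_contMDiffAt_nhds (n := 1) (by simp)).1 (h1.of_le (by simp)))] with y k1 k2 k3
  rw [pm_df (k1.mdifferentiableAt ne0) (k3.mdifferentiableAt one_ne_zero), Dr59.df, Dr59.df, mf_congr k2]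

theorem bm_ang (hp : Pv I K pr p) {γ : Q → Circle} (h : ∀ q, Line51.CSm K γ q) :
    Bm I K pr (Line51.ang I (γ ∘ pr)) p :=
  ⟨Line51.ang K γ, Line51.smAt_ang (h _),
    hp.mono fun _ k => (Line51.pm_ang (h _) (k.mdifferentiableAt ne0)).symm⟩

theorem Bm.tp (hd : finrank ℝ F < finrank ℝ E) (h : Bm I K pr a p) : tp E (a p) = 0 :=
  let ⟨γ, _, h2⟩ := h
  (congrArg _ h2.self_of_nhds).trans (tp_pm_lt hd pr γ p)

end fun_

section mat

variable {X Y : Matrix m n (M → Ext E)}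

theorem BM.add (h : BM I K pr X p) (h' : BM I K pr Y p) : BM I K pr (X + Y) p :=
  fun i j => (h i j).add (h' i j)

theorem BM.sub (h : BM I K pr X p) (h' : BM I K pr Y p) : BM I K pr (X - Y) p :=
  fun i j => (h i j).sub (h' i j)

theorem BM.mul {A : Matrix m κ (M → Ext E)} {B : Matrix κ n (M → Ext E)} (h : BM I K pr A p)
    (h' : BM I K pr B p) : BM I K pr (A * B) p := fun i j => by
  rw [Matrix.mul_apply]
  exact bm_sum fun k _ => (h i k).mul (h' k j)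

theorem BM.md (hp : Pv I K pr p) (h : BM I K pr X p) : BM I K pr (md I X) p := fun i j => (h i j).d hp

theorem bM_one : BM I K pr (1 : Matrix κ κ (M → Ext E)) p := fun i j => by
  rw [Matrix.one_apply]
  split_ifs
  exacts [bm_one, bm_zero]

theorem BM.tpt (hp : Pv I K pr p) {C : Matrix κ κ (M → Ext E)} {u : Matrix κ' κ (M → Ext E)}
    {v : Matrix κ κ' (M → Ext E)} (hC : BM I K pr C p) (hu : BM I K pr u p) (hv : BM I K pr v p) :
    BM I K pr (tpt I C u v) p :=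
  ((hu.mul (hv.md hp)).add ((hu.mul hC).mul hv)).sub ((bM_one.sub (hu.mul hv)).mul ((hu.mul hv).md hp))

theorem BM.c2 (hp : Pv I K pr p) {C T : Matrix κ κ (M → Ext E)} (hC : BM I K pr C p)
    (hT : BM I K pr T p) : Bm I K pr (c2 I C T) p :=
  have h : BM I K pr (cu I C) p := (hC.md hp).add (hC.mul hC)
  bm_sum fun k _ => (hT.mul (h.mul h)) k k

end mat

variable (K) in
/-- basic systems, relative to the family `σ` of one-forms -/
structure BS (pr : M → Q) (σ : o → M → Ext E) (S : Sy E M κ) (p : M) : Prop where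
  th : ∃ W : κ → o → M → ℝ, (∀ a k, Bf K pr (W a k) p) ∧
    ∀ᶠ y in 𝓝 p, ∀ a v, e1 (S.th a y) v = ∑ k, W a k y * e1 (σ k y) v
  e : ∀ k a, Bf K pr (fun y => e1 (σ k y) (S.e a y)) p

/-- index set of frames -/
abbrev F4 : Type := Fin 2 × Fin 2

variable (I K) in
/-- basic connections -/
def Bsc (pr : M → Q) (σ : o → M → Ext E) (S : Sy E M κ) (C : Matrix κ κ (M → Ext E)) (p : M) : Prop :=
  ∃ (S' : Sy E M F4) (G : Matrix F4 F4 (M → Ext E)), BS K pr σ S' p ∧ BM I K pr G p ∧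
    Lc p fun U => Eqv I U S C S' G

variable {σ : o → M → Ext E} {S : Sy E M κ} {S' : Sy E M κ'} {C : Matrix κ κ (M → Ext E)}
  {C' : Matrix κ' κ' (M → Ext E)}

theorem BS.tr (h' : BS K pr σ S' p) (h : BS K pr σ S p) : BM I K pr (tr S' S) p := fun b a => by
  obtain ⟨W, h1, h2⟩ := h'.th
  exact ((bf_sum (s := Finset.univ) fun k _ => (h1 b k).mul (h.e k a)).congr
    (h2.mono fun y hy => hy b _)).fn

theorem Bsc.tp (hd : finrank ℝ F < finrank ℝ E) (hp : Pv I K pr p) (h : Bsc I K pr σ S C p) :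
    tp E (c2 I C (tr S S) p) = 0 := by
  obtain ⟨S', G, h1, h2, h3⟩ := h
  obtain ⟨U, k1, k2, k3⟩ := h3.ex
  rw [← k3.c2 k1 k2]
  exact (h2.c2 hp (h1.tr h1)).tp hd

theorem Bsc.of_eqv (h : Bsc I K pr σ S' C' p) (e : Lc p fun U => Eqv I U S C S' C') :
    Bsc I K pr σ S C p :=
  let ⟨R, G, h1, h2, h3⟩ := h
  ⟨R, G, h1, h2, (e.and h3).mono fun _ hU k => k.1.trans hU k.2⟩

theorem Bsc.tn (h : Bsc I K pr σ S C p) : Lc p fun U => Tn I U S C :=
  let ⟨_, _, _, _, h3⟩ := h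
  h3.mono fun _ hU k => k.left hU

theorem Bsc.to (hp : Pv I K pr p) (h : Bsc I K pr σ S C p) (h1 : BS K pr σ S' p)
    (h2 : Lc p fun U => S'.On I U) : ∃ G, BM I K pr G p ∧ Lc p fun U => Eqv I U S C S' G :=
  let ⟨R, G, k1, k2, k3⟩ := h
  ⟨tc I R G S', k2.tpt hp (h1.tr k1) (k1.tr h1),
    (k3.and h2).mono fun _ hU k => k.1.trans hU ((k.1.right hU).tc hU k.2)⟩

theorem bsc_mix (hp : Pv I K pr p) {ψ : ι → M → ℝ} {C : ι → Matrix κ κ (M → Ext E)}
    (hs : ∀ᶠ y in 𝓝 p, ∑ j, ψ j y = 1)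
    (h : ∀ j, ψ j =ᶠ[𝓝 p] 0 ∨
      ((∀ᶠ y in 𝓝 p, FSm I (ψ j) y) ∧ Bf K pr (ψ j) p ∧ Bsc I K pr σ S (C j) p)) :
    Bsc I K pr σ S (∑ j, ψ j • C j) p := by
  obtain ⟨j₀, -, -, R, G₀, h1, -, h3⟩ : ∃ j, (∀ᶠ y in 𝓝 p, FSm I (ψ j) y) ∧ Bf K pr (ψ j) p ∧
      Bsc I K pr σ S (C j) p := by
    by_contra k
    have := hs.self_of_nhds
    rw [Finset.sum_eq_zero fun j _ => ((h j).resolve_right fun e => k ⟨j, e⟩).self_of_nhds] at this
    exact zero_ne_one this
  have k : ∀ j, ∃ G, BM I K pr (ψ j • G) p ∧ Lc p fun U => (∀ x ∈ U, ψ j x = 0) ∨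
      ((∀ x ∈ U, FSm I (ψ j) x) ∧ Eqv I U S (C j) R G) := fun j => by
    rcases h j with e | ⟨e1, e2, e3⟩
    · exact ⟨0, fun a b => by simpa using bm_zero, (Lc.of_ev e).mono fun _ _ => Or.inl⟩
    · obtain ⟨G, k1, k2⟩ := e3.to hp h1 (h3.mono fun _ _ k => k.s')
      exact ⟨G, fun a b => Bm.fsmul e2 (k1 a b), ((Lc.of_ev e1).and k2).mono fun _ _ => Or.inr⟩
  choose G k1 k2 using k
  refine ⟨R, ∑ j, ψ j • G j, h1, fun a b => ?_, ((h3.and (.of_ev hs)).and (.fin k2)).mono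
    fun U hU k => eqv_mix hU k.1.1.s k.1.1.s' k.1.2 k.2⟩
  rw [mix_apply]
  exact bm_sum fun j _ => k1 j a b

section pb

variable {f : N → M} {y : N} {pr' : N → Q} {φ : Q → Q} {σ' : o → N → Ext E'}

theorem Bf.pb (hf : ContinuousAt f y) (hφ : ContMDiff K K ∞ φ) (e : pr ∘ f =ᶠ[𝓝 y] φ ∘ pr')
    {g : M → ℝ} (h : Bf K pr g (f y)) : Bf K pr' (fun z => g (f z)) y := by
  obtain ⟨γ, h1, h2⟩ := h
  refine ⟨γ ∘ φ, ContMDiffAt.comp _ (by rwa [show φ (pr' y) = pr (f y) from e.self_of_nhds.symm]) (hφ _), ?_⟩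
  filter_upwards [hf.eventually h2, e] with z k1 k2 using k1.trans (congrArg γ k2)

theorem Bm.pb (hf : IsLocalDiffeomorphAt J I ∞ f y) (hp : Pv I K pr (f y)) (hp' : Pv J K pr' y)
    (hφ : ContMDiff K K ∞ φ) (e : pr ∘ f =ᶠ[𝓝 y] φ ∘ pr') {a : M → Ext E} (h : Bm I K pr a (f y)) :
    Bm J K pr' (pm J I f a) y := by
  obtain ⟨γ, h1, h2⟩ := h
  have c := hf.contMDiffAt.continuousAt
  refine ⟨pm K K φ γ, SmAt.pm (hφ _) (by rwa [show φ (pr' y) = pr (f y) from e.self_of_nhds.symm]), ?_⟩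
  filter_upwards [c.eventually h2, e.eventually_nhds, c.eventually hp, hp', Orx52.eventually_ld hf]
    with z k1 k2 k3 k4 k5
  rw [pm_congr_right k1, pm_comp (k3.mdifferentiableAt ne0) (k5.mdifferentiableAt ne0), pm_congr k2 rfl,
    pm_comp ((hφ _).mdifferentiableAt ne0) (k4.mdifferentiableAt ne0)]

theorem Bsc.pb (hf : IsLocalDiffeomorphAt J I ∞ f y) (hp : Pv I K pr (f y)) (hp' : Pv J K pr' y)
    (hφ : ContMDiff K K ∞ φ) (e : pr ∘ f =ᶠ[𝓝 y] φ ∘ pr') {l : o → ℝ} (hl : ∀ k, l k ≠ 0)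
    (hσ : ∀ᶠ z in 𝓝 y, ∀ k, pm J I f (σ k) z = l k • σ' k z) (h : Bsc I K pr σ S C (f y)) :
    Bsc J K pr' σ' (S.pb J I f) (C.map (pa I J f)) y := by
  obtain ⟨R, G, ⟨⟨W, h0, h1⟩, h2⟩, h3, h4⟩ := h
  have c := hf.contMDiffAt.continuousAt
  refine ⟨R.pb J I f, G.map (pa I J f), ⟨⟨fun a k z => W a k (f z) * l k,
    fun a k => ((h0 a k).pb c hφ e).mul (bf_const _), ?_⟩, fun k a =>
    ((bf_const (l k)⁻¹).mul ((h2 k a).pb c hφ e)).congr ?_⟩,
    fun i j => (h3 i j).pb hf hp hp' hφ e, h4.eqv_pb hf⟩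
  · filter_upwards [c.eventually h1, hσ] with z k1 k2 a v
    refine (e1_pm _ _ _ _).trans ((k1 a _).trans (Finset.sum_congr rfl fun k _ => ?_))
    rw [← e1_pm, k2, e1_smul, mul_assoc]
  · filter_upwards [hσ, Orx52.eventually_ld hf] with z k1 k2
    rw [← e1_pb k2, k1, e1_smul, inv_mul_cancel_left₀ (hl k)]

end pb

end Crest.Agent.X212.Cg28
end
end

-- ▼ part X212/Cg28/Stm

/-!
# X212 / Cg28 (helper28): basic germs on the rod manifold; the leaves VTX and TOR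
-/

set_option autoImplicit false
set_option linter.unusedSectionVars false

open Set Filter Topology Function Module
open scoped ContDiff Manifold Real
open Crest.Agent.R208 Crest.Agent.R208.FI
open Crest.Agent.R208.F hiding wd
open Crest.Agent.X212.Int54 hiding dt pr kap tp_pr pr_eq cAt_pr pm_pr kap_ne sigmaCompact
open Crest.Agent.X212.Line51 hiding tp Uni
open Crest.Agent.X212.Dr59 Crest.Agent.X212.Rod53 Crest.Agent.X212.Pj41
open Crest.Agent.X212.Num57 (c2)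

noncomputable section

namespace Crest.Agent.X212.Cg28

/-- the model of `Circle × ℝ × ℝ` -/
abbrev KQ := (𝓡 1).prod 𝓘(ℝ, ℝ × ℝ)

theorem rank_KQ : finrank ℝ (EuclideanSpace ℝ (Fin 1) × ℝ × ℝ) < finrank ℝ E4 := by simp

/-- the times seen by the vertex chart number `i` -/
def Ch.jv {L : ℕ} (c : Ch L) (i : ℤ) : Set ℝ := Jv c.v (c.a (i - 1)) (c.a i) i

namespace Bs

variable (B : Bs) {L : ℕ} (c : Ch L)

/-- the quotient by the longitudinal circle -/
def pr (x : B.X c) : Circle × ℝ × ℝ := (chi B.T c.v (0, 1) x, B.tm c x, B.T.yy c.v x)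

/-- the toric coframe -/
def om : Fin 4 → B.X c → Ext E4 :=
  ![ang (𝓡 4) (chi B.T c.v (1, 0)), ang (𝓡 4) (chi B.T c.v (0, 1)), df (𝓡 4) (B.tm c),
    df (𝓡 4) (B.T.yy c.v)]

/-- the toric part over a set of times -/
def vu (J : Set ℝ) : Set (B.X c) := B.T.tor c.v ∩ B.tm c ⁻¹' J

/-- basic connections -/
abbrev Bc {κ : Type} [Fintype κ] [DecidableEq κ] (S : Sy E4 (B.X c) κ)
    (C : Matrix κ κ (B.X c → Ext E4)) (x : B.X c) : Prop := Bsc (𝓡 4) KQ (B.pr c) (B.om c) S C x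

variable {B c} {x : B.X c}

theorem isOpen_vu {J : Set ℝ} (h : IsOpen J) : IsOpen (B.vu c J) :=
  B.T.isOpen_tor.inter (h.preimage B.T.continuous_time)

theorem isCompact_bx (α β r : ℝ) : IsCompact (B.bx c α β r) :=
  B.T.isCompact_tor isCompact_Icc (fun t _ => c.loc t) r

theorem ev_free (h : x ∈ B.T.tor c.v) (h' : x ∈ off B.T c.v) :
    ∀ᶠ y in 𝓝 x, y ∈ B.T.tor c.v ∧ y ∈ off B.T c.v :=
  (B.T.isOpen_tor.inter isOpen_off).mem_nhds ⟨h, h'⟩

theorem pv (h : x ∈ B.T.tor c.v) (h' : x ∈ off B.T c.v) : Pv (𝓡 4) KQ (B.pr c) x :=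
  (ev_free h h').mono fun y k => (csm_off k.1 k.2).prodMk
    ((B.T.contMDiff_time y).prodMk_space (sm_yy k.1 k.2))

theorem bf_tm : Bf KQ (B.pr c) (B.tm c) x :=
  bf_of (γ := fun q : Circle × ℝ × ℝ => q.2.1)
    (contDiff_fst.contDiffAt.comp_contMDiffAt contMDiffAt_snd)

theorem bf_yy : Bf KQ (B.pr c) (B.T.yy c.v) x :=
  bf_of (γ := fun q : Circle × ℝ × ℝ => q.2.2)
    (contDiff_snd.contDiffAt.comp_contMDiffAt contMDiffAt_snd)

theorem bm_th (h : x ∈ B.T.tor c.v) (h' : x ∈ off B.T c.v) :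
    Bm (𝓡 4) KQ (B.pr c) (ang (𝓡 4) (chi B.T c.v (0, 1))) x :=
  bm_ang (pv h h') (γ := Prod.fst) fun _ => contMDiffAt_fst

theorem bc_top {κ : Type} [Fintype κ] [DecidableEq κ] {S : Sy E4 (B.X c) κ}
    {C : Matrix κ κ (B.X c → Ext E4)} (k : B.Bc c S C x) (h : x ∈ B.T.tor c.v) (h' : x ∈ off B.T c.v) :
    Int54.tp E4 (c2 (𝓡 4) C (tr S S) x) = 0 := Bsc.tp rank_KQ (pv h h') k

/-- the axis has no interior -/
theorem tp_of_off {a : B.X c → Ext E4} (ha : SmAt (𝓡 4) a x)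
    (h : ∀ᶠ y in 𝓝 x, y ∈ off B.T c.v → Int54.tp E4 (a y) = 0) : Int54.tp E4 (a x) = 0 := by
  have o := (B.ox c).ori
  have k := eq_of_dense dense_off (g := fun _ => (0 : ℝ)) (Orx52.contAt_rat (o.sm x) (o.ne x) ha)
    continuousAt_const (h.mono fun y a b => by rw [rat, a b, zero_div])
  exact (div_eq_zero_iff.1 k).resolve_right (o.ne x)

end Bs

/-- `Frm` on the whole vertex chart -/
structure Frm2 (B : Bs) {L : ℕ} (c : Ch L) (i : ℤ) (e β : B.X c → Ext E4) (h : ℝ → ℝ) : Prop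
    extends Frm B c i e β h where
  pot2 : ∀ x ∈ B.vu c (c.jv i), SmAt (𝓡 4) β x ∧ IsDeg 1 (β x) ∧ dM (𝓡 4) β x = e x

/-- the proof of `Dr59.frmStmt`, with the larger domain -/
theorem frm2 (B : Bs) {L : ℕ} (c : Ch L) (i : ℤ) (h1 : 2 ≤ i) (h2 : i ≤ (c.n : ℤ) + 1) :
    ∃ e β h, Frm2 B c i e β h := by
  have hu := c.uni h1 h2
  set a := c.a (i - 1)
  set b := c.a i
  have hd : dt a b = -1 := c.det i h1 h2
  have hJ : Ioo ((i : ℝ) - 1) (i + 1) ⊆ Jv c.v a b i := Ioo_subset_Jv hu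
  set y : ℝ × ℝ := c.t (i - 1) • rc2 (dual a b 1 0) with ey
  have hy : dr y b = 0 := by
    have := dr_rc2 (dual a b 1 0) b
    rw [dual_right hu] at this
    simp only [ey, dr, Prod.smul_fst, Prod.smul_snd, smul_eq_mul, Int.cast_zero] at *
    linear_combination c.t (i - 1) * this
  have hx : dr (rc2 (0, 1) - y) a = 0 := by
    have := dr_rc2 (dual a b 1 0) a
    rw [dual_left hu] at this
    simp only [ey, dr, rc2, Prod.smul_fst, Prod.smul_snd, Prod.fst_sub, Prod.snd_sub, smul_eq_mul,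
      Int.cast_zero, Int.cast_one, Ch.t] at *
    linear_combination -((c.a (i - 1)).2 : ℝ) * this
  have hα : ∀ R, XA B.T (ang (𝓡 3) B.θ) (rc2 (0, 1) - y + y) R := fun R => by
    rw [sub_add_cancel]
    exact xa_ang ⟨B.sm, fun w hw => by simp [B.θτ w hw, chT]⟩ R
  obtain ⟨F, hF⟩ := exists_TG (r := 1 / 4) (by norm_num)
    (adm_vp hx hy fun t ht => hJ ⟨by linarith [ht.1], by linarith [ht.2]⟩)
    (contDiff_const.sub (cd_s1 i) : ContDiff ℝ ∞ fun t => 1 - s1 i t) (hα 1)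
  obtain ⟨β, hβ, hβ'⟩ := hF.exists_pot (J := Jv c.v a b i) isOpen_interior
    fun t ht => (ev_vp hx hy ht).mono fun _ => And.right
  have hc := hF.cs_time (hα 1) (by norm_num) c.loc (isCompact_Icc (a := (i : ℝ) - 1 / 6) (b := i + 1 / 6))
    fun t => ev_out
  have ho : ∀ x ∉ B.bx c (i - 1 / 4) (i + 1 / 4) (1 / 2), B.tm c x ∉ Icc ((i : ℝ) - 1 / 6) (i + 1 / 6) ∨
      ¬(x ∈ B.T.tor c.v ∧ B.T.yy c.v x ≤ 2 * (1 / 4)) := fun x hx => by
    by_contra k
    rw [not_or, not_not, not_not] at k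
    exact hx ⟨k.2.1, ⟨by linarith [k.1.1], by linarith [k.1.2]⟩, by linarith [k.2.2]⟩
  refine ⟨F, β, s1 i, ⟨cd_s1 i, hc.mono fun x hx => ⟨by linarith [hx.1], by linarith [hx.2]⟩, ?_,
    fun x hx k => hβ x hx (hJ k), fun x hx => ?_, fun x hx k e => ?_⟩, fun x hx => hβ x hx.1 hx.2⟩
  · refine (hF.tf.ip_eq (B.ox c) B.pos isOpen_univ hF.tf (hc.mono (subset_univ _))).trans ?_
    rw [integral_vp]
    simp only [ey, det2, rc2, dual, hd, Prod.smul_fst, Prod.smul_snd, Prod.fst_sub, Prod.snd_sub, smul_eq_mul, Ch.t]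
    push_cast
    ring
  · rcases ho x hx with k | k
    · rw [Pi.mul_apply, hc.eq_zero k, mul_zero, map_zero]
    · rw [hF.sq_far (hα 1) k, map_zero]
  · have k1 := (hα (B.T.yy c.v x + 1)).ax_eq ⟨hx, k, lt_add_one _⟩
    rw [hβ' x k, pot_apply, k1, ang_chi (η := dual a b 1 0) hx k, tq_apply, tq_apply, tq_apply, sub_add_cancel]
    rcases ho x e with l | l
    · obtain ⟨s, l⟩ := ev_out (x := rc2 (0, 1) - y) (y := y) l
      rw [l.self_of_nhds.1, l.self_of_nhds.2, sub_add_cancel]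
      simp only [ey, rc2, Prod.smul_fst, Prod.smul_snd, smul_eq_mul, Int.cast_zero, Int.cast_one]
      module
    · rw [(gw_one (by norm_num) l).self_of_nhds]
      simp only [ey, rc2, Prod.smul_fst, Prod.smul_snd, smul_eq_mul, Int.cast_zero, Int.cast_one, Pi.one_apply]
      module

/-- VTX : the connection `diag (J β / t_a, - J β / t_b)` of the vertex chart -/
def VtxStmt : Prop := ∀ (B : Bs) (L : ℕ) (c : Ch L) (i : ℤ), 2 ≤ i → i ≤ (c.n : ℤ) + 1 →
  ∀ e β h, Frm2 B c i e β h → ∃ (S : Sy E4 (B.X c) F4) (A : Matrix F4 F4 (B.X c → Ext E4)),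
    Tn (𝓡 4) (B.vu c (c.jv i)) S A ∧
    (∀ x ∈ B.vu c (c.jv i), c2 (𝓡 4) A (tr S S) x =
      (-2 * ((c.t (i - 1))⁻¹ ^ 2 + (c.t i)⁻¹ ^ 2)) • (e * e) x) ∧
    ∀ x ∈ B.vu c (c.jv i), x ∈ off B.T c.v → x ∉ B.bx c (i - 1 / 4) (i + 1 / 4) (1 / 2) → B.Bc c S A x

/-- TOR : the connection of the toric part -/
def TorStmt : Prop := ∀ (B : Bs) (L : ℕ) (c : Ch L) (κ : Type) [Fintype κ] [DecidableEq κ]
  (S : Sy E4 (B.X c) κ), S.On (𝓡 4) (B.vu c (Ioo 1 L)) → ∃ C : Matrix κ κ (B.X c → Ext E4),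
    Tn (𝓡 4) (B.vu c (Ioo 1 L)) S C ∧
    (∀ x ∈ B.vu c (Ioo 1 L), x ∈ off B.T c.v → x ∉ B.bx c (7 / 4) (L - 3 / 4) (1 / 2) → B.Bc c S C x) ∧
    integOn (𝓡 4) (B.O c) (c2 (𝓡 4) C (tr S S)) (B.bx c (3 / 2) (L - 1 / 2) 1) =
      8 * π ^ 2 * (3 * c.n - c.del)

end Crest.Agent.X212.Cg28
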